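import Vale.Agent.P245.Defs

/-!
# P245, M2: smoothness and derivatives of tilted expectations of a boundedly supported measure
-/

namespace Vale.Agent.P245.M2

open MeasureTheory ProbabilityTheory Filter Topology
open scoped RealInnerProductSpace

variable {n : ℕ} {μ : Measure (Rn n)} [IsProbabilityMeasure μ]

/-- The exponent of the tilt, as a linear map of time and space. -/
noncomputable def lexp (x : Rn n) : ℝ × Rn n →L[ℝ] ℝ :=
  (-(‖x‖ ^ 2) / 2) • ContinuousLinearMap.fst ℝ ℝ (Rn n)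
    + (innerSL ℝ x).comp (ContinuousLinearMap.snd ℝ ℝ (Rn n))

lemma lexp_apply (x : Rn n) (q : ℝ × Rn n) : lexp x q = texp q.1 q.2 x := by
  simp [lexp, texp, real_inner_comm]
  ring

lemma continuous_lexp : Continuous (lexp : Rn n → _) := by
  unfold lexp; fun_prop

/-- Bounded, measurable. -/
def Good {E : Type*} [NormedAddCommGroup E] (μ : Measure (Rn n)) (G : Rn n → E) : Prop :=
  AEStronglyMeasurable G μ ∧ ∃ M, ∀ᵐ x ∂μ, ‖G x‖ ≤ M

/-- The exponential integral of `G`. -/
noncomputable def expInt {E : Type*} [NormedAddCommGroup E] [NormedSpace ℝ E]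
    (μ : Measure (Rn n)) (G : Rn n → E) (q : ℝ × Rn n) : E :=
  ∫ x, Real.exp (lexp x q) • G x ∂μ

variable {E : Type*} [NormedAddCommGroup E] [NormedSpace ℝ E]

omit [IsProbabilityMeasure μ] in
lemma norm_lexp_bdd (hb : BddSupp μ) : ∃ L, 0 ≤ L ∧ ∀ᵐ x ∂μ, ‖lexp x‖ ≤ L := by
  obtain ⟨R, hR⟩ := hb
  obtain ⟨L, hL⟩ := (isCompact_closedBall (0 : Rn n) (|R|)).exists_bound_of_continuousOn
    (continuous_lexp.norm.continuousOn)
  refine ⟨|L|, abs_nonneg _, hR.mono fun x hx => ?_⟩
  have := hL x (by simpa using hx.trans (le_abs_self R))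
  simp only [norm_norm] at this
  exact this.trans (le_abs_self L)

omit [IsProbabilityMeasure μ] in
lemma Good.deriv (hb : BddSupp μ) {G : Rn n → E} (hG : Good μ G) :
    Good μ fun x => (lexp x).smulRight (G x) := by
  obtain ⟨hm, M, hM⟩ := hG
  obtain ⟨L, hL0, hL⟩ := norm_lexp_bdd hb
  refine ⟨?_, L * M, (hL.and hM).mono fun x hx => ?_⟩
  · have hc : Continuous fun p : (ℝ × Rn n →L[ℝ] ℝ) × E => p.1.smulRight p.2 :=
      isBoundedBilinearMap_smulRight.continuous
    exact hc.comp_aestronglyMeasurable (continuous_lexp.aestronglyMeasurable.prodMk hm)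
  · rw [ContinuousLinearMap.norm_smulRight_apply]
    exact mul_le_mul hx.1 hx.2 (norm_nonneg _) hL0

omit [IsProbabilityMeasure μ] in
lemma aesm_expInt {G : Rn n → E} (hG : Good μ G) (q : ℝ × Rn n) :
    AEStronglyMeasurable (fun x => Real.exp (lexp x q) • G x) μ := by
  have h : Continuous fun x : Rn n => Real.exp (lexp x q) :=
    Real.continuous_exp.comp (continuous_lexp.clm_apply continuous_const)
  exact h.aestronglyMeasurable.smul hG.1

lemma integrable_expInt (hb : BddSupp μ) {G : Rn n → E} (hG : Good μ G) (q : ℝ × Rn n) :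
    Integrable (fun x => Real.exp (lexp x q) • G x) μ := by
  obtain ⟨L, hL0, hL⟩ := norm_lexp_bdd hb
  obtain ⟨M, hM⟩ := hG.2
  refine Integrable.of_bound (aesm_expInt hG q) (Real.exp (L * ‖q‖) * M)
    ((hL.and hM).mono fun x hx => ?_)
  rw [norm_smul, Real.norm_eq_abs, Real.abs_exp]
  refine mul_le_mul (Real.exp_le_exp.2 ?_) hx.2 (norm_nonneg _) (Real.exp_pos _).le
  exact ((le_abs_self _).trans ((lexp x).le_opNorm q)).trans
    (mul_le_mul_of_nonneg_right hx.1 (norm_nonneg _))

lemma hasFDerivAt_expInt (hb : BddSupp μ) {G : Rn n → E} (hG : Good μ G) (q : ℝ × Rn n) :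
    HasFDerivAt (expInt μ G) (expInt μ (fun x => (lexp x).smulRight (G x)) q) q := by
  obtain ⟨L, hL0, hL⟩ := norm_lexp_bdd hb
  obtain ⟨M, hM⟩ := (hG.deriv hb).2
  refine hasFDerivAt_integral_of_dominated_of_fderiv_le
    (F := fun q x => Real.exp (lexp x q) • G x)
    (F' := fun q x => Real.exp (lexp x q) • (lexp x).smulRight (G x))
    (bound := fun _ => Real.exp (L * (‖q‖ + 1)) * M) (s := Metric.ball q 1)
    (Metric.ball_mem_nhds q one_pos) (Eventually.of_forall fun p => aesm_expInt hG p)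
    (integrable_expInt hb hG q) (aesm_expInt (hG.deriv hb) q) ?_ (integrable_const _) ?_
  · refine (hL.and hM).mono fun x hx p hp => ?_
    rw [norm_smul, Real.norm_eq_abs, Real.abs_exp]
    refine mul_le_mul (Real.exp_le_exp.2 ?_) hx.2 (norm_nonneg _) (Real.exp_pos _).le
    refine ((le_abs_self _).trans ((lexp x).le_opNorm p)).trans
      (mul_le_mul hx.1 ?_ (norm_nonneg _) hL0)
    rw [Metric.mem_ball, dist_eq_norm] at hp
    have := norm_le_norm_add_norm_sub' p q
    linarith
  · refine ae_of_all _ fun x p _ => ?_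
    refine ((lexp x).hasFDerivAt.exp.smul_const (G x)).congr_fderiv
      (ContinuousLinearMap.ext fun v => ?_)
    show (Real.exp (lexp x p) * lexp x v) • G x = Real.exp (lexp x p) • (lexp x v • G x)
    rw [smul_smul]

lemma contDiff_expInt (hb : BddSupp μ) {G : Rn n → E} (hG : Good μ G) :
    ContDiff ℝ 2 (expInt μ G) := by
  have key : ∀ {E' : Type _} [NormedAddCommGroup E'] [NormedSpace ℝ E'] {G' : Rn n → E'},
      Good μ G' → Differentiable ℝ (expInt μ G') ∧
        fderiv ℝ (expInt μ G') = expInt μ fun x => (lexp x).smulRight (G' x) :=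
    fun hG' => ⟨fun q => (hasFDerivAt_expInt hb hG' q).differentiableAt,
      funext fun q => (hasFDerivAt_expInt hb hG' q).fderiv⟩
  obtain ⟨d1, e1⟩ := key hG
  have hG1 := hG.deriv hb
  have h1 : ContDiff ℝ 1 (expInt μ fun x => (lexp x).smulRight (G x)) := by
    have d2 : ∀ q, HasFDerivAt (expInt μ fun x => (lexp x).smulRight (G x))
        (expInt μ (fun x => (lexp x).smulRight ((lexp x).smulRight (G x))) q) q :=
      hasFDerivAt_expInt hb hG1
    refine contDiff_one_iff_fderiv.2 ⟨fun q => (d2 q).differentiableAt, ?_⟩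
    rw [funext fun q => (d2 q).fderiv]
    exact Differentiable.continuous fun q =>
      (hasFDerivAt_expInt hb (hG1.deriv hb) q).differentiableAt
  rw [show (2 : WithTop ℕ∞) = 1 + 1 by norm_num]
  exact contDiff_succ_iff_fderiv.2 ⟨d1, by simp, e1 ▸ h1⟩

omit [IsProbabilityMeasure μ] in
lemma num_eq (t : ℝ) (th : Rn n) (h : Rn n → ℝ) : num μ t th h = expInt μ h (t, th) := by
  unfold num expInt
  simp only [lexp_apply, smul_eq_mul, mul_comm]

lemma integrable_num (hb : BddSupp μ) {h : Rn n → ℝ} (hh : Good μ h) (t : ℝ) (th : Rn n) :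
    Integrable (fun x => h x * Real.exp (texp t th x)) μ := by
  simpa only [lexp_apply, smul_eq_mul, mul_comm] using integrable_expInt hb hh (t, th)

omit [IsProbabilityMeasure μ] in
lemma Good.const (c : ℝ) : Good μ fun _ => c :=
  ⟨aestronglyMeasurable_const, ‖c‖, Eventually.of_forall fun _ => le_rfl⟩

omit [IsProbabilityMeasure μ] in
lemma Good.mul {f g : Rn n → ℝ} (hf : Good μ f) (hg : Good μ g) : Good μ fun x => f x * g x := by
  obtain ⟨M, hM⟩ := hf.2
  obtain ⟨N, hN⟩ := hg.2
  refine ⟨hf.1.mul hg.1, M * N, (hM.and hN).mono fun x hx => ?_⟩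
  rw [norm_mul]
  exact mul_le_mul hx.1 hx.2 (norm_nonneg _) ((norm_nonneg _).trans hx.1)

omit [IsProbabilityMeasure μ] in
lemma Good.of_continuous (hb : BddSupp μ) {f : Rn n → ℝ} (hf : Continuous f) : Good μ f := by
  obtain ⟨R, hR⟩ := hb
  obtain ⟨M, hM⟩ := (isCompact_closedBall (0 : Rn n) (|R|)).exists_bound_of_continuousOn
    hf.continuousOn
  exact ⟨hf.aestronglyMeasurable, M, hR.mono fun x hx =>
    hM x (by simpa using hx.trans (le_abs_self R))⟩

omit [IsProbabilityMeasure μ] in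
lemma Good.coord (hb : BddSupp μ) (i : Fin n) : Good μ fun x => x i :=
  Good.of_continuous hb (PiLp.continuous_apply 2 _ i)

lemma zt_pos (hb : BddSupp μ) (t : ℝ) (th : Rn n) : 0 < zt μ t th := by
  have h := integrable_num hb (Good.const (μ := μ) 1) t th
  simp only [one_mul] at h
  simp only [zt, num, one_mul]
  exact integral_exp_pos h

/-- Directional derivative of an integral. -/
lemma hasDerivAt_num (hb : BddSupp μ) {h : Rn n → ℝ} (hh : Good μ h) (t : ℝ) (th : Rn n)
    (a : ℝ) (v : Rn n) :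
    HasDerivAt (fun s : ℝ => num μ (t + s * a) (th + s • v) h)
      (num μ t th fun x => h x * (⟪v, x⟫ - a / 2 * ‖x‖ ^ 2)) 0 := by
  have hd := hasFDerivAt_expInt hb hh (t, th)
  have hl : HasDerivAt (fun s : ℝ => (t + s * a, th + s • v)) (a, v) 0 := by
    refine HasDerivAt.prodMk ?_ ?_
    · simpa using ((hasDerivAt_id' (0 : ℝ)).mul_const a).const_add t
    · simpa using ((hasDerivAt_id' (0 : ℝ)).smul_const v).const_add th
  have hd' : HasFDerivAt (expInt μ h) (expInt μ (fun x => (lexp x).smulRight (h x)) (t, th))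
      (t + (0 : ℝ) * a, th + (0 : ℝ) • v) := by simpa using hd
  have := hd'.comp_hasDerivAt (0 : ℝ) hl
  simp only [num_eq]
  refine this.congr_deriv ?_
  rw [← num_eq]
  unfold expInt num
  rw [ContinuousLinearMap.integral_apply (integrable_expInt hb (hh.deriv hb) _)]
  refine integral_congr_ae (ae_of_all _ fun x => ?_)
  simp only [smul_apply, ContinuousLinearMap.smulRight_apply, lexp_apply,
    smul_eq_mul]
  rw [show texp a v x = ⟪v, x⟫ - a / 2 * ‖x‖ ^ 2 from rfl]
  ring

/-- Directional derivative of a tilted expectation. -/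
lemma hasDerivAt_ex (hb : BddSupp μ) {h : Rn n → ℝ} (hh : Good μ h) (t : ℝ) (th : Rn n)
    (a : ℝ) (v : Rn n) :
    HasDerivAt (fun s : ℝ => ex μ (t + s * a) (th + s • v) h)
      (cv μ t th h fun x => ⟪v, x⟫ - a / 2 * ‖x‖ ^ 2) 0 := by
  have h1 := hasDerivAt_num hb hh t th a v
  have h2 := hasDerivAt_num hb (Good.const (μ := μ) 1) t th a v
  have hz := zt_pos hb t th
  have hz' : num μ (t + (0 : ℝ) * a) (th + (0 : ℝ) • v) (fun _ => (1 : ℝ)) ≠ 0 := by
    simpa [zt] using hz.ne'
  refine (h1.div h2 hz').congr_deriv ?_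
  simp only [one_mul, zero_mul, add_zero, zero_smul, cv, ex, zt]
  have : num μ t th (fun _ => (1 : ℝ)) ≠ 0 := hz.ne'
  generalize num μ t th (fun x => h x * (⟪v, x⟫ - a / 2 * ‖x‖ ^ 2)) = A
  generalize num μ t th (fun x => ⟪v, x⟫ - a / 2 * ‖x‖ ^ 2) = B
  generalize num μ t th h = C
  field_simp

lemma ex_add (hb : BddSupp μ) {f g : Rn n → ℝ} (hf : Good μ f) (hg : Good μ g) (t : ℝ)
    (th : Rn n) : ex μ t th (fun x => f x + g x) = ex μ t th f + ex μ t th g := by
  simp only [ex, num, add_mul, ← add_div]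
  rw [integral_add (integrable_num hb hf t th) (integrable_num hb hg t th)]

lemma ex_sum (hb : BddSupp μ) {ι : Type*} (s : Finset ι) {f : ι → Rn n → ℝ}
    (hf : ∀ i, Good μ (f i)) (t : ℝ) (th : Rn n) :
    ex μ t th (fun x => ∑ i ∈ s, f i x) = ∑ i ∈ s, ex μ t th (f i) := by
  simp only [ex, num, Finset.sum_mul, ← Finset.sum_div]
  rw [integral_finsetSum _ fun i _ => integrable_num hb (hf i) t th]

omit [IsProbabilityMeasure μ] in
lemma ex_const_mul (c : ℝ) (f : Rn n → ℝ) (t : ℝ) (th : Rn n) :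
    ex μ t th (fun x => c * f x) = c * ex μ t th f := by
  simp only [ex, num, mul_assoc, integral_const_mul, mul_div_assoc]

lemma contDiff_ex (hb : BddSupp μ) {h : Rn n → ℝ} (hh : Good μ h) :
    ContDiff ℝ 2 (Function.uncurry fun t th => ex μ t th h) := by
  have e : (Function.uncurry fun t th => ex μ t th h)
      = fun q => expInt μ h q / expInt μ (fun _ => (1 : ℝ)) q := by
    funext q
    rcases q with ⟨t, th⟩
    simp only [Function.uncurry_apply_pair, ex, zt, num_eq]
  rw [e]
  refine (contDiff_expInt hb hh).div (contDiff_expInt hb (Good.const 1)) fun q => ?_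
  have := zt_pos hb q.1 q.2
  rw [zt, num_eq] at this
  exact this.ne'

lemma hasDerivAt_ex_coord (hb : BddSupp μ) {h : Rn n → ℝ} (hh : Good μ h) (t : ℝ) (th : Rn n)
    (i : Fin n) :
    HasDerivAt (fun s : ℝ => ex μ t (th + s • unit i) h) (cv μ t th h fun x => x i) 0 := by
  have := hasDerivAt_ex hb hh t th 0 (unit i)
  simpa [unit, EuclideanSpace.inner_single_left] using this

lemma D1_ex (hb : BddSupp μ) {h : Rn n → ℝ} (hh : Good μ h) (t : ℝ) (th : Rn n) (i : Fin n) :
    D1 i (fun q => ex μ t q h) th = cv μ t th h fun x => x i :=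
  (hasDerivAt_ex_coord hb hh t th i).deriv

lemma D2_ex (hb : BddSupp μ) {h : Rn n → ℝ} (hh : Good μ h) (t : ℝ) (th : Rn n) (i : Fin n) :
    D2 i (fun q => ex μ t q h) th
      = cv μ t th h (fun x => x i * x i) - 2 * (ex μ t th (fun x => x i) * cv μ t th h fun x => x i) := by
  have e : (fun s : ℝ => D1 i (fun q => ex μ t q h) (th + s • unit i))
      = fun s => ex μ t (th + s • unit i) (fun x => h x * x i)
          - ex μ t (th + s • unit i) h * ex μ t (th + s • unit i) fun x => x i :=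
    funext fun s => D1_ex hb hh t _ i
  have hc := Good.coord hb (μ := μ) i
  have h1 := hasDerivAt_ex_coord hb (hh.mul hc) t th i
  have h2 := hasDerivAt_ex_coord hb hh t th i
  have h3 := hasDerivAt_ex_coord hb hc t th i
  unfold D2
  rw [e]
  refine (h1.sub (h2.mul h3)).deriv.trans ?_
  simp only [cv, zero_smul, add_zero, mul_assoc]
  ring

lemma dt_ex (hb : BddSupp μ) {h : Rn n → ℝ} (hh : Good μ h) (t : ℝ) (th : Rn n) :
    deriv (fun s => ex μ s th h) t = -(2⁻¹) * cv μ t th h fun x => ‖x‖ ^ 2 := by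
  have h1 := hasDerivAt_ex hb hh t th 1 0
  simp only [mul_one, smul_zero, add_zero, inner_zero_left, zero_sub] at h1
  have e : deriv (fun s => ex μ s th h) t = deriv (fun s => ex μ (t + s) th h) 0 := by
    rw [deriv_comp_const_add (f := fun s => ex μ s th h), add_zero]
  rw [e, h1.deriv]
  have a1 : ex μ t th (fun x => -(1 / 2 * ‖x‖ ^ 2)) = -(2⁻¹) * ex μ t th fun x => ‖x‖ ^ 2 := by
    rw [← ex_const_mul]; exact congrArg (ex μ t th) (funext fun x => by ring)
  have a2 : ex μ t th (fun x => h x * -(1 / 2 * ‖x‖ ^ 2))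
      = -(2⁻¹) * ex μ t th fun x => h x * ‖x‖ ^ 2 := by
    rw [← ex_const_mul]; exact congrArg (ex μ t th) (funext fun x => by ring)
  simp only [cv, a1, a2]
  ring

lemma gen_ex (hb : BddSupp μ) {h : Rn n → ℝ} (hh : Good μ h) (t : ℝ) (th : Rn n) :
    gen μ (fun s q => ex μ s q h) t th = 0 := by
  have hc := fun i => (Good.coord hb (μ := μ) i).mul (Good.coord hb i)
  have hsq : (fun x : Rn n => ‖x‖ ^ 2) = fun x => ∑ i, x i * x i := by
    funext x
    rw [EuclideanSpace.real_norm_sq_eq]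
    exact Finset.sum_congr rfl fun i _ => pow_two _
  have hsum : cv μ t th h (fun x => ‖x‖ ^ 2) = ∑ i, cv μ t th h fun x => x i * x i := by
    rw [hsq]
    simp only [cv, Finset.mul_sum, Finset.sum_sub_distrib]
    rw [ex_sum hb _ (fun i => hh.mul (hc i)), ex_sum hb _ hc, Finset.mul_sum]
  simp only [gen, D1_ex hb hh, D2_ex hb hh, dt_ex hb hh, hsum, Finset.sum_sub_distrib,
    Finset.mul_sum, mul_sub]
  ring_nf
  rw [← Finset.sum_mul, ← Finset.sum_mul]
  ring

end Vale.Agent.P245.M2
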