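import Vale.Agent.P245.M2.Mix

/-!
# P245, M2: the generator identity
-/

namespace Vale.Agent.P245.M2

open MeasureTheory ProbabilityTheory Filter Topology
open scoped RealInnerProductSpace

variable {n : ℕ}

section Slices

variable {F : ℝ → Rn n → ℝ} (hF : ContDiff ℝ 2 (Function.uncurry F))
include hF

lemma hasDerivAt_slice (i : Fin n) (t : ℝ) (th : Rn n) :
    HasDerivAt (fun s : ℝ => F t (th + s • unit i))
      (fderiv ℝ (Function.uncurry F) (t, th) ((0 : ℝ), unit i)) 0 := by
  have hd := (hF.differentiable (by norm_num) (t, th)).hasFDerivAt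
  have hl : HasDerivAt (fun s : ℝ => (t, th + s • unit i)) ((0 : ℝ), unit i) 0 :=
    (hasDerivAt_const (0 : ℝ) t).prodMk
      (by simpa using ((hasDerivAt_id' (0 : ℝ)).smul_const (unit i)).const_add th)
  have hd' : HasFDerivAt (Function.uncurry F) (fderiv ℝ (Function.uncurry F) (t, th))
      (t, th + (0 : ℝ) • unit i) := by simpa using hd
  exact hd'.comp_hasDerivAt (0 : ℝ) hl

lemma D1_eq_fderiv (i : Fin n) (t : ℝ) (th : Rn n) :
    D1 i (F t) th = fderiv ℝ (Function.uncurry F) (t, th) ((0 : ℝ), unit i) :=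
  (hasDerivAt_slice hF i t th).deriv

lemma dt_eq_fderiv (t : ℝ) (th : Rn n) :
    deriv (fun s => F s th) t = fderiv ℝ (Function.uncurry F) (t, th) ((1 : ℝ), 0) := by
  have hd := (hF.differentiable (by norm_num) (t, th)).hasFDerivAt
  exact (hd.comp_hasDerivAt t
    ((hasDerivAt_id' t).prodMk (hasDerivAt_const t th))).deriv

lemma fderiv_split (t : ℝ) (th : Rn n) (a : ℝ) (v : Rn n) :
    fderiv ℝ (Function.uncurry F) (t, th) (a, v)
      = a * deriv (fun s => F s th) t + ∑ i, v i * D1 i (F t) th := by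
  have hv : v = ∑ i, v i • unit i := by
    conv_lhs => rw [← (EuclideanSpace.basisFun (Fin n) ℝ).sum_repr v]
    simp [unit]
  have e : ((a, v) : ℝ × Rn n) = a • ((1 : ℝ), (0 : Rn n)) + ∑ i, v i • ((0 : ℝ), unit i) := by
    refine Prod.ext ?_ ?_
    · simp [Prod.fst_sum]
    · simpa [Prod.snd_sum] using hv
  rw [e, map_add, map_smul, map_sum, dt_eq_fderiv hF, smul_eq_mul]
  simp only [map_smul, smul_eq_mul, D1_eq_fderiv hF]

lemma contDiff_D1 (i : Fin n) (t : ℝ) : ContDiff ℝ 1 fun th => D1 i (F t) th := by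
  simp only [D1_eq_fderiv hF]
  exact ((hF.fderiv_right (m := 1) (by norm_num)).comp
    (contDiff_const.prodMk contDiff_id)).clm_apply contDiff_const

lemma D2_eq_fderiv (i : Fin n) (t : ℝ) (th : Rn n) :
    D2 i (F t) th = fderiv ℝ (fun q => D1 i (F t) q) th (unit i) := by
  have hd : HasFDerivAt (fun q => D1 i (F t) q) (fderiv ℝ (fun q => D1 i (F t) q) th)
      (th + (0 : ℝ) • unit i) := by
    simpa using ((contDiff_D1 hF i t).differentiable one_ne_zero th).hasFDerivAt
  have hl : HasDerivAt (fun s : ℝ => th + s • unit i) (unit i) 0 := by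
    simpa using ((hasDerivAt_id' (0 : ℝ)).smul_const (unit i)).const_add th
  exact (hd.comp_hasDerivAt (0 : ℝ) hl).deriv

lemma continuous_dt (t : ℝ) : Continuous fun th => deriv (fun s => F s th) t := by
  simp only [dt_eq_fderiv hF]
  exact ((hF.continuous_fderiv (by norm_num)).comp
    (continuous_const.prodMk continuous_id)).clm_apply continuous_const

lemma continuous_D2 (i : Fin n) (t : ℝ) : Continuous fun th => D2 i (F t) th := by
  simp only [D2_eq_fderiv hF]
  exact ((contDiff_D1 hF i t).continuous_fderiv one_ne_zero).clm_apply continuous_const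

end Slices

lemma norm_unit (i : Fin n) : ‖unit i‖ = 1 := by simp [unit]

lemma inner_unit (i : Fin n) (z : Rn n) : ⟪unit i, z⟫ = z i := by
  simp [unit, EuclideanSpace.inner_single_left]

variable {μ : Measure (Rn n)} [IsProbabilityMeasure μ]

omit [IsProbabilityMeasure μ] in
lemma integral_obs {G : Rn n → ℝ} (hG : Measurable G) (t : ℝ) :
    ∫ th, G th ∂(obs μ t)
      = ∫ p, G (t • p.1 + Real.sqrt t • p.2) ∂(μ.prod (gam n)) :=
  integral_map (by fun_prop) hG.aestronglyMeasurable

/-- Data at a fixed time: bounds on the derivatives of `F`. -/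
structure SliceBd (F : ℝ → Rn n → ℝ) (t M : ℝ) : Prop where
  cd : ContDiff ℝ 2 (Function.uncurry F)
  b1 : ∀ i th, |D1 i (F t) th| ≤ M
  bt : ∀ th, |deriv (fun s => F s th) t| ≤ M
  b2 : ∀ i th, |D2 i (F t) th| ≤ M

lemma sliceBd_of {F : ℝ → Rn n → ℝ} (hF : ContDiff ℝ 2 (Function.uncurry F)) {t M : ℝ}
    (hM : ∀ th, ‖fderiv ℝ (Function.uncurry F) (t, th)‖ ≤ M ∧ ∀ i, |D2 i (F t) th| ≤ M) :
    SliceBd F t M := by
  refine ⟨hF, fun i th => ?_, fun th => ?_, fun i th => (hM th).2 i⟩
  · rw [D1_eq_fderiv hF]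
    have := (fderiv ℝ (Function.uncurry F) (t, th)).le_opNorm ((0 : ℝ), unit i)
    rw [Prod.norm_def] at this
    simp only [norm_zero, norm_unit, zero_le_one, max_eq_right, mul_one] at this
    exact this.trans (hM th).1
  · rw [dt_eq_fderiv hF]
    have := (fderiv ℝ (Function.uncurry F) (t, th)).le_opNorm ((1 : ℝ), (0 : Rn n))
    rw [Prod.norm_def] at this
    simp only [norm_zero, norm_one, zero_le_one, max_eq_left, mul_one] at this
    exact this.trans (hM th).1

lemma integrable_norm_snd : Integrable (fun p : Rn n × Rn n => ‖p.2‖) (μ.prod (gam n)) :=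
  ((IsGaussian.memLp_id (gam n) 1 ENNReal.one_ne_top).integrable le_rfl).norm.comp_snd μ

variable {F : ℝ → Rn n → ℝ} {t M : ℝ}

lemma mix_term (hb : BddSupp μ) (ht : 0 < t) (h : SliceBd F t M) (i : Fin n) :
    Integrable (fun p : Rn n × Rn n =>
        p.1 i * D1 i (F t) (t • p.1 + Real.sqrt t • p.2)) (μ.prod (gam n)) ∧
      Integrable (fun p : Rn n × Rn n => ex μ t (t • p.1 + Real.sqrt t • p.2) (fun x => x i)
          * D1 i (F t) (t • p.1 + Real.sqrt t • p.2)) (μ.prod (gam n)) ∧
      ∫ p, p.1 i * D1 i (F t) (t • p.1 + Real.sqrt t • p.2) ∂(μ.prod (gam n))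
        = ∫ p, ex μ t (t • p.1 + Real.sqrt t • p.2) (fun x => x i)
            * D1 i (F t) (t • p.1 + Real.sqrt t • p.2) ∂(μ.prod (gam n)) := by
  obtain ⟨R, hR⟩ := hb
  have hb : BddSupp μ := ⟨R, hR⟩
  have hD1c : Continuous fun th => D1 i (F t) th := (contDiff_D1 h.cd i t).continuous
  have hexc : Continuous fun th => ex μ t th fun x => x i :=
    (contDiff_ex hb (Good.coord hb i)).continuous.comp (continuous_const.prodMk continuous_id)
  have hexb : ∀ th, |ex μ t th fun x => x i| ≤ |R| := fun th =>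
    abs_ex_le hb (hR.mono fun x hx => (PiLp.norm_apply_le x i).trans (hx.trans (le_abs_self R))) t th
  have hθ : Continuous fun p : Rn n × Rn n => t • p.1 + Real.sqrt t • p.2 := by fun_prop
  have hH := mixture_ae hb ht (H := fun th x => x i * D1 i (F t) th)
    (((PiLp.continuous_apply 2 _ i).comp continuous_snd).mul
      (hD1c.comp continuous_fst) : Continuous _).measurable
    (C := |R| * M) (hR.mono fun x hx th => by
      rw [abs_mul]
      exact mul_le_mul ((PiLp.norm_apply_le x i).trans (hx.trans (le_abs_self R))) (h.b1 i th)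
        (abs_nonneg _) (abs_nonneg R))
  refine ⟨hH.1, Integrable.of_bound ((hexc.mul hD1c).comp hθ).aestronglyMeasurable (|R| * M)
    (ae_of_all _ fun p => ?_), hH.2.trans ?_⟩
  · rw [Real.norm_eq_abs, abs_mul]
    exact mul_le_mul (hexb _) (h.b1 i _) (abs_nonneg _) (abs_nonneg R)
  · have e : ∀ th, ex μ t th (fun x => x i * D1 i (F t) th)
        = ex μ t th (fun x => x i) * D1 i (F t) th := fun th => by
      rw [mul_comm (ex μ t th _), ← ex_const_mul]
      exact congrArg (ex μ t th) (funext fun x => mul_comm _ _)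
    simp only [e]
    exact integral_obs (hexc.mul hD1c).measurable t

lemma stein_term (h : SliceBd F t M) (i : Fin n) :
    Integrable (fun p : Rn n × Rn n =>
        p.2 i * D1 i (F t) (t • p.1 + Real.sqrt t • p.2)) (μ.prod (gam n)) ∧
      Integrable (fun p : Rn n × Rn n =>
        D2 i (F t) (t • p.1 + Real.sqrt t • p.2)) (μ.prod (gam n)) ∧
      ∫ p, p.2 i * D1 i (F t) (t • p.1 + Real.sqrt t • p.2) ∂(μ.prod (gam n))
        = Real.sqrt t * ∫ p, D2 i (F t) (t • p.1 + Real.sqrt t • p.2) ∂(μ.prod (gam n)) := by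
  have hθ : Continuous fun p : Rn n × Rn n => t • p.1 + Real.sqrt t • p.2 := by fun_prop
  have hD1c : Continuous fun th => D1 i (F t) th := (contDiff_D1 h.cd i t).continuous
  have hzD : Integrable (fun p : Rn n × Rn n =>
      p.2 i * D1 i (F t) (t • p.1 + Real.sqrt t • p.2)) (μ.prod (gam n)) := by
    refine (integrable_norm_snd.mul_const M).mono'
      (((PiLp.continuous_apply 2 _ i).comp continuous_snd).mul
        (hD1c.comp hθ) : Continuous _).aestronglyMeasurable (ae_of_all _ fun p => ?_)
    rw [Real.norm_eq_abs, abs_mul]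
    exact mul_le_mul (PiLp.norm_apply_le p.2 i) (h.b1 i _) (abs_nonneg _) (norm_nonneg _)
  have hD2i : Integrable (fun p : Rn n × Rn n =>
      D2 i (F t) (t • p.1 + Real.sqrt t • p.2)) (μ.prod (gam n)) :=
    Integrable.of_bound ((continuous_D2 h.cd i t).comp hθ).aestronglyMeasurable M
      (ae_of_all _ fun p => h.b2 i _)
  refine ⟨hzD, hD2i, ?_⟩
  rw [← integral_const_mul, integral_prod _ hzD, integral_prod _ (hD2i.const_mul _)]
  refine integral_congr_ae (ae_of_all _ fun x => ?_)
  have hG : ContDiff ℝ 1 fun z => D1 i (F t) (t • x + Real.sqrt t • z) :=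
    (contDiff_D1 h.cd i t).comp (contDiff_const.add (contDiff_id.const_smul _))
  have hfd : ∀ z, fderiv ℝ (fun z => D1 i (F t) (t • x + Real.sqrt t • z)) z (unit i)
      = Real.sqrt t * D2 i (F t) (t • x + Real.sqrt t • z) := fun z => by
    have h' := ((((contDiff_D1 h.cd i t).differentiable one_ne_zero) _).hasFDerivAt).comp z
      (((hasFDerivAt_id z).const_smul (Real.sqrt t)).const_add (t • x))
    rw [D2_eq_fderiv h.cd]
    refine (DFunLike.congr_fun h'.fderiv (unit i)).trans ?_
    simp
  have hs := stein hG (fun z => h.b1 i _) (unit i) (M := Real.sqrt t * M) (fun z => by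
    rw [hfd, abs_mul, abs_of_nonneg (Real.sqrt_nonneg t)]
    exact mul_le_mul_of_nonneg_left (h.b2 i _) (Real.sqrt_nonneg t))
  simpa only [hfd, inner_unit] using hs

/-- The derivative, rewritten through the generator. -/
lemma integral_deriv_eq (hb : BddSupp μ) (ht : 0 < t) (h : SliceBd F t M) :
    ∫ p, fderiv ℝ (Function.uncurry F) (t, t • p.1 + Real.sqrt t • p.2)
      ((1 : ℝ), p.1 + (1 / (2 * Real.sqrt t)) • p.2) ∂(μ.prod (gam n))
      = ∫ th, gen μ F t th ∂(obs μ t) := by
  have hθ : Continuous fun p : Rn n × Rn n => t • p.1 + Real.sqrt t • p.2 := by fun_prop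
  have hdc := continuous_dt h.cd t
  have hgc : Continuous fun th => gen μ F t th :=
    (hdc.add (continuous_finsetSum _ fun i _ =>
      ((contDiff_ex hb (Good.coord hb i)).continuous.comp
          (continuous_const.prodMk continuous_id)).mul (contDiff_D1 h.cd i t).continuous)).add
      (continuous_const.mul (continuous_finsetSum _ fun i _ => continuous_D2 h.cd i t))
  have hdti : Integrable (fun p : Rn n × Rn n =>
      deriv (fun s => F s (t • p.1 + Real.sqrt t • p.2)) t) (μ.prod (gam n)) :=
    Integrable.of_bound (hdc.comp hθ).aestronglyMeasurable M (ae_of_all _ fun p => h.bt _)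
  rw [integral_obs hgc.measurable t]
  simp only [fderiv_split h.cd, one_mul, PiLp.add_apply, PiLp.smul_apply, smul_eq_mul, add_mul,
    Finset.sum_add_distrib, gen]
  have hz2 : ∀ i, Integrable (fun p : Rn n × Rn n => 1 / (2 * Real.sqrt t) * p.2 i
      * D1 i (F t) (t • p.1 + Real.sqrt t • p.2)) (μ.prod (gam n)) := fun i => by
    simpa only [mul_assoc] using (stein_term h i).1.const_mul (1 / (2 * Real.sqrt t))
  have hA := fun i => (mix_term hb ht h i).1
  have hC := fun i => (mix_term hb ht h i).2.1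
  have hD := fun i => (stein_term (μ := μ) h i).2.1
  have sA := integrable_finsetSum Finset.univ fun i _ => hA i
  have sB := integrable_finsetSum Finset.univ fun i _ => hz2 i
  have sC := integrable_finsetSum Finset.univ fun i _ => hC i
  have sD := integrable_finsetSum Finset.univ fun i _ => hD i
  rw [integral_add hdti (sA.fun_add sB), integral_add sA sB,
    integral_add (hdti.fun_add sC) (sD.const_mul _), integral_add hdti sC,
    integral_const_mul, integral_finsetSum _ (fun i _ => hA i),
    integral_finsetSum _ (fun i _ => hz2 i), integral_finsetSum _ (fun i _ => hC i),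
    integral_finsetSum _ (fun i _ => hD i), add_assoc]
  congr 2
  · exact Finset.sum_congr rfl fun i _ => (mix_term hb ht h i).2.2
  · rw [Finset.mul_sum]
    refine Finset.sum_congr rfl fun i _ => ?_
    simp only [mul_assoc]
    rw [integral_const_mul, (stein_term h i).2.2, ← mul_assoc]
    have := Real.sqrt_pos.2 ht
    field_simp

theorem generator_aux (hb : BddSupp μ) {T : ℝ} (hT : 0 < T)
    (hF : Admissible T F) :
    ContinuousOn (fun t => ∫ th, F t th ∂(obs μ t)) (Set.Icc 0 T) ∧
      ∀ t ∈ Set.Ioo 0 T, HasDerivAt (fun s => ∫ th, F s th ∂(obs μ s))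
        (∫ th, gen μ F t th ∂(obs μ t)) t := by
  obtain ⟨hF2, M, hM⟩ := hF
  obtain ⟨R, hR⟩ := hb
  have hb' : BddSupp μ := ⟨R, hR⟩
  have hu : Continuous (Function.uncurry F) := hF2.continuous
  have hD : Continuous (fderiv ℝ (Function.uncurry F)) := hF2.continuous_fderiv (by norm_num)
  have hM0 : 0 ≤ M := (abs_nonneg _).trans (hM 0 ⟨le_rfl, hT.le⟩ 0).1
  have hc : ∀ s, Continuous (F s) := fun s => hu.comp (continuous_const.prodMk continuous_id)
  have hΦ : (fun s => ∫ th, F s th ∂(obs μ s))
      = fun s => ∫ p, F s (s • p.1 + Real.sqrt s • p.2) ∂(μ.prod (gam n)) :=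
    funext fun s => integral_obs (hc s).measurable s
  rw [hΦ]
  have hm : ∀ s, AEStronglyMeasurable
      (fun p : Rn n × Rn n => F s (s • p.1 + Real.sqrt s • p.2)) (μ.prod (gam n)) := fun s =>
    ((hc s).comp (by fun_prop)).aestronglyMeasurable
  refine ⟨?_, fun t ht => ?_⟩
  · refine continuousOn_of_dominated (bound := fun _ => M) (fun s _ => hm s)
      (fun s hs => ae_of_all _ fun p => (hM s hs _).1) (integrable_const _)
      (ae_of_all _ fun p => ?_)
    exact (hu.comp (by fun_prop : Continuous fun s : ℝ =>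
      (s, s • p.1 + Real.sqrt s • p.2))).continuousOn
  obtain ⟨ht0, htT⟩ := ht
  have htI : t ∈ Set.Icc 0 T := ⟨ht0.le, htT.le⟩
  -- bounds
  have hR1 : ∀ᵐ p ∂μ.prod (gam n), ‖p.1‖ ≤ R := Measure.quasiMeasurePreserving_fst.ae hR
  set c : ℝ := 1 / (2 * Real.sqrt (t / 2)) with hcdef
  have hder := hasDerivAt_integral_of_dominated_loc_of_deriv_le (μ := μ.prod (gam n)) (x₀ := t)
    (F := fun s p => F s (s • p.1 + Real.sqrt s • p.2))
    (F' := fun s p => fderiv ℝ (Function.uncurry F) (s, s • p.1 + Real.sqrt s • p.2)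
      ((1 : ℝ), p.1 + (1 / (2 * Real.sqrt s)) • p.2))
    (bound := fun p => M * (1 + |R| + c * ‖p.2‖))
    (Ioo_mem_nhds (by linarith : t / 2 < t) htT)
    (Eventually.of_forall hm)
    (Integrable.of_bound (hm t) M (ae_of_all _ fun p => (hM t htI _).1))
    ((hD.comp (by fun_prop)).clm_apply (by fun_prop) : Continuous _).aestronglyMeasurable
    (hR1.mono fun p hp s hs => ?_)
    ((((integrable_const _).add (integrable_norm_snd.const_mul c))).const_mul M)
    (ae_of_all _ fun p s hs => ?_)
  rotate_left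
  · have hs0 : 0 < s := by linarith [hs.1]
    have hsI : s ∈ Set.Icc 0 T := ⟨hs0.le, hs.2.le⟩
    refine ((fderiv ℝ (Function.uncurry F) _).le_opNorm _).trans
      (mul_le_mul (hM s hsI _).2.1 ?_ (norm_nonneg _) hM0)
    rw [Prod.norm_def]
    have h1 : ‖p.1 + (1 / (2 * Real.sqrt s)) • p.2‖ ≤ |R| + c * ‖p.2‖ := by
      refine (norm_add_le _ _).trans (add_le_add (hp.trans (le_abs_self R)) ?_)
      rw [norm_smul, Real.norm_eq_abs, abs_of_nonneg (by positivity)]
      refine mul_le_mul_of_nonneg_right ?_ (norm_nonneg _)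
      rw [hcdef]
      gcongr
      exact hs.1.le
    refine max_le ?_ (h1.trans (by linarith))
    have : 0 ≤ c * ‖p.2‖ := by positivity
    simp only [norm_one]
    linarith [abs_nonneg R]
  · have hs0 : 0 < s := by linarith [hs.1]
    have hl : HasDerivAt (fun r : ℝ => (r, r • p.1 + Real.sqrt r • p.2))
        ((1 : ℝ), p.1 + (1 / (2 * Real.sqrt s)) • p.2) s :=
      (hasDerivAt_id' s).prodMk (by
        simpa using ((hasDerivAt_id' s).smul_const p.1).fun_add
          ((Real.hasDerivAt_sqrt hs0.ne').smul_const p.2))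
    exact ((hF2.differentiable (by norm_num) _).hasFDerivAt).comp_hasDerivAt s hl
  exact hder.2.congr_deriv (integral_deriv_eq hb' ht0
    (sliceBd_of hF2 fun th => (hM t htI th).2))

end Vale.Agent.P245.M2
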