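import Vale.Agent.P245.Gauss
import Vale.Agent.P245.M2.Calc

/-!
# P245, M2: the mixture identity, the density of the observation, and Gaussian integration by parts
-/

namespace Vale.Agent.P245.M2

open MeasureTheory ProbabilityTheory Filter Topology
open scoped RealInnerProductSpace ENNReal

variable {n : ℕ} {μ : Measure (Rn n)} [IsProbabilityMeasure μ]

/-- The weight turning a centred Gaussian into the observation of `x`. -/
noncomputable def wgt (t : ℝ) (x z : Rn n) : ℝ := Real.exp (texp t (Real.sqrt t • z) x)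

omit [IsProbabilityMeasure μ] in
lemma wgt_eq {t : ℝ} (ht : 0 ≤ t) (x z : Rn n) : shiftW (Real.sqrt t • x) z = wgt t x z := by
  unfold shiftW wgt texp
  rw [inner_smul_left, inner_smul_left, norm_smul, mul_pow, Real.norm_eq_abs, sq_abs,
    Real.sq_sqrt ht, real_inner_comm x z]
  simp only [conj_trivial]
  ring_nf

omit [IsProbabilityMeasure μ] in
lemma smul_shift {t : ℝ} (ht : 0 ≤ t) (x z : Rn n) :
    Real.sqrt t • (z + Real.sqrt t • x) = t • x + Real.sqrt t • z := by
  rw [smul_add, smul_smul, Real.mul_self_sqrt ht, add_comm]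

omit [IsProbabilityMeasure μ] in
lemma integral_shift_wgt {t : ℝ} (ht : 0 ≤ t) (F : Rn n → ℝ) (x : Rn n) :
    ∫ z, F (t • x + Real.sqrt t • z) ∂gam n = ∫ z, wgt t x z * F (Real.sqrt t • z) ∂gam n := by
  have h := integral_shift (fun z => F (Real.sqrt t • z)) (Real.sqrt t • x)
  simp only [smul_shift ht, wgt_eq ht] at h
  exact h

omit [IsProbabilityMeasure μ] in
lemma measurable_wgt (t : ℝ) : Measurable fun p : Rn n × Rn n => wgt t p.1 p.2 := by
  unfold wgt texp
  fun_prop

omit [IsProbabilityMeasure μ] in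
lemma integral_wgt {t : ℝ} (ht : 0 ≤ t) (x : Rn n) : ∫ z, wgt t x z ∂gam n = 1 := by
  have h := integral_shift_wgt ht (fun _ => (1 : ℝ)) x
  simpa using h.symm

lemma integrable_wgt {t : ℝ} (ht : 0 ≤ t) :
    Integrable (fun p : Rn n × Rn n => wgt t p.1 p.2) (μ.prod (gam n)) := by
  rw [integrable_prod_iff (measurable_wgt t).aestronglyMeasurable]
  refine ⟨ae_of_all _ fun x => ?_, ?_⟩
  · have := integrable_shiftW (Real.sqrt t • x)
    exact this.congr (ae_of_all _ fun z => wgt_eq ht x z)
  · refine (integrable_const (1 : ℝ)).congr (ae_of_all _ fun x => ?_)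
    show 1 = ∫ z, ‖wgt t x z‖ ∂gam n
    rw [← integral_wgt ht x]
    exact integral_congr_ae (ae_of_all _ fun z => (abs_of_pos (Real.exp_pos _)).symm)

omit [IsProbabilityMeasure μ] in
lemma measurable_num [SFinite μ] (t : ℝ) {H : Rn n → Rn n → ℝ}
    (hm : Measurable (Function.uncurry H)) : Measurable fun th => num μ t th (H th) := by
  have : StronglyMeasurable (Function.uncurry fun (th x : Rn n) => H th x * Real.exp (texp t th x)) :=
    (hm.mul (by unfold texp; fun_prop)).stronglyMeasurable
  exact this.integral_prod_right.measurable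

omit [IsProbabilityMeasure μ] in
lemma abs_num_le (hb : BddSupp μ) [IsProbabilityMeasure μ] {h : Rn n → ℝ} {C : ℝ}
    (hC : ∀ᵐ x ∂μ, |h x| ≤ C) (t : ℝ) (th : Rn n) : |num μ t th h| ≤ C * zt μ t th := by
  have hi := integrable_num hb (Good.const (μ := μ) 1) t th
  simp only [one_mul] at hi
  have := norm_integral_le_of_norm_le (hi.const_mul C) (f := fun x => h x * Real.exp (texp t th x))
    (hC.mono fun x hx => by
      rw [Real.norm_eq_abs, abs_mul, Real.abs_exp]
      exact mul_le_mul_of_nonneg_right hx (Real.exp_pos _).le)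
  rw [Real.norm_eq_abs, integral_const_mul] at this
  simpa [num, zt] using this

lemma abs_ex_le (hb : BddSupp μ) {h : Rn n → ℝ} {C : ℝ} (hC : ∀ᵐ x ∂μ, |h x| ≤ C) (t : ℝ)
    (th : Rn n) : |ex μ t th h| ≤ C := by
  have hz := zt_pos hb t th
  rw [ex, abs_div, abs_of_pos hz, div_le_iff₀ hz]
  exact abs_num_le hb hC t th

/-- The mixture identity, for integrands bounded almost everywhere. -/
lemma mixture_ae (hb : BddSupp μ) {t : ℝ} (ht : 0 < t) {H : Rn n → Rn n → ℝ}
    (hm : Measurable (Function.uncurry H)) {C : ℝ} (hC : ∀ᵐ x ∂μ, ∀ th, |H th x| ≤ C) :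
    Integrable (fun p : Rn n × Rn n => H (t • p.1 + Real.sqrt t • p.2) p.1) (μ.prod (gam n)) ∧
    ∫ p, H (t • p.1 + Real.sqrt t • p.2) p.1 ∂(μ.prod (gam n))
        = ∫ th, ex μ t th (H th) ∂(obs μ t) := by
  have hC1 : ∀ᵐ p ∂μ.prod (gam n), ∀ th, |H th p.1| ≤ C :=
    Measure.quasiMeasurePreserving_fst.ae hC
  have hG : Measurable fun th => ex μ t th (H th) :=
    (measurable_num t hm).div (measurable_num t (by fun_prop : Measurable (Function.uncurry fun _ _ : Rn n => (1 : ℝ))))
  have hGb : ∀ th, |ex μ t th (H th)| ≤ C :=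
    fun th => abs_ex_le hb (hC.mono fun x hx => hx th) t th
  have hθ : Measurable fun p : Rn n × Rn n => t • p.1 + Real.sqrt t • p.2 := by fun_prop
  have hi1 : Integrable (fun p : Rn n × Rn n => H (t • p.1 + Real.sqrt t • p.2) p.1)
      (μ.prod (gam n)) :=
    Integrable.of_bound (hm.comp (hθ.prodMk measurable_fst)).aestronglyMeasurable C
      (hC1.mono fun p hp => by simpa [Real.norm_eq_abs] using hp _)
  refine ⟨hi1, ?_⟩
  have hi2 : Integrable (fun p : Rn n × Rn n => ex μ t (t • p.1 + Real.sqrt t • p.2)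
      (H (t • p.1 + Real.sqrt t • p.2))) (μ.prod (gam n)) :=
    Integrable.of_bound (hG.comp hθ).aestronglyMeasurable C
      (ae_of_all _ fun p => by simpa [Real.norm_eq_abs] using hGb _)
  have hA : Integrable (Function.uncurry fun x z => wgt t x z * H (Real.sqrt t • z) x)
      (μ.prod (gam n)) :=
    (integrable_wgt ht.le).mul_bdd
      (hm.comp ((by fun_prop : Measurable fun p : Rn n × Rn n => Real.sqrt t • p.2).prodMk
        measurable_fst)).aestronglyMeasurable
      (c := C) (hC1.mono fun p hp => by simpa [Real.norm_eq_abs] using hp _)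
  have hB : Integrable (Function.uncurry fun x z => wgt t x z *
      ex μ t (Real.sqrt t • z) (H (Real.sqrt t • z))) (μ.prod (gam n)) :=
    (integrable_wgt ht.le).mul_bdd (hG.comp (by fun_prop)).aestronglyMeasurable
      (c := C) (ae_of_all _ fun p => by simpa [Real.norm_eq_abs] using hGb _)
  unfold obs
  rw [integral_map hθ.aemeasurable hG.aestronglyMeasurable,
    integral_prod _ hi1, integral_prod _ hi2]
  have e1 : ∀ x, ∫ z, H (t • x + Real.sqrt t • z) x ∂gam n
      = ∫ z, wgt t x z * H (Real.sqrt t • z) x ∂gam n :=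
    fun x => integral_shift_wgt ht.le (fun th => H th x) x
  have e2 : ∀ x, ∫ z, ex μ t (t • x + Real.sqrt t • z) (H (t • x + Real.sqrt t • z)) ∂gam n
      = ∫ z, wgt t x z * ex μ t (Real.sqrt t • z) (H (Real.sqrt t • z)) ∂gam n :=
    fun x => integral_shift_wgt ht.le (fun th => ex μ t th (H th)) x
  simp only [e1, e2]
  rw [integral_integral_swap hA, integral_integral_swap hB]
  refine integral_congr_ae (ae_of_all _ fun z => ?_)
  simp only []
  rw [integral_mul_const]
  have hz := zt_pos hb t (Real.sqrt t • z)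
  simp only [ex, zt, num, wgt, one_mul, mul_comm (Real.exp _)]
  have hz' : (∫ x, Real.exp (texp t (Real.sqrt t • z) x) ∂μ) ≠ 0 := by
    simpa [zt, num] using hz.ne'
  field_simp

omit [IsProbabilityMeasure μ] in
lemma map_shift_eq (a : Rn n) :
    (gam n).map (fun z => z + a) = (gam n).withDensity fun z => ENNReal.ofReal (shiftW a z) := by
  ext s hs
  rw [Measure.map_apply (measurable_add_const a) hs, withDensity_apply _ hs,
    ← ofReal_integral_eq_lintegral_ofReal (integrable_shiftW a).integrableOn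
      (ae_of_all _ fun z => (Real.exp_pos _).le), ← integral_indicator hs]
  have h := integral_shift (s.indicator fun _ => (1 : ℝ)) a
  have e : ∀ z, shiftW a z * s.indicator (fun _ => (1 : ℝ)) z = s.indicator (shiftW a) z := by
    intro z
    by_cases hz : z ∈ s <;> simp [hz]
  simp only [e] at h
  rw [← h]
  have e2 : (fun z => s.indicator (fun _ => (1 : ℝ)) (z + a))
      = ((fun z => z + a) ⁻¹' s).indicator fun _ => (1 : ℝ) := rfl
  rw [e2, integral_indicator_const _ (measurable_add_const a hs), smul_eq_mul, mul_one,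
    ofReal_measureReal]

/-- The density of the observation. -/
lemma lintegral_obs (hb : BddSupp μ) {t : ℝ} (ht : 0 < t) {F : Rn n → ℝ≥0∞} (hF : Measurable F) :
    ∫⁻ th, F th ∂(obs μ t) = ∫⁻ z, F (Real.sqrt t • z) *
      ENNReal.ofReal (zt μ t (Real.sqrt t • z)) ∂gam n := by
  have hθ : Measurable fun p : Rn n × Rn n => t • p.1 + Real.sqrt t • p.2 := by fun_prop
  have hFs : Measurable fun z : Rn n => F (Real.sqrt t • z) := hF.comp (measurable_const_smul _)
  unfold obs
  rw [lintegral_map hF hθ, lintegral_prod _ (show AEMeasurable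
    (fun p : Rn n × Rn n => F (t • p.1 + Real.sqrt t • p.2)) _ from (hF.comp hθ).aemeasurable)]
  have e1 : ∀ x, ∫⁻ z, F (t • x + Real.sqrt t • z) ∂gam n
      = ∫⁻ z, ENNReal.ofReal (wgt t x z) * F (Real.sqrt t • z) ∂gam n := by
    intro x
    have h1 := lintegral_map (μ := gam n) hFs (measurable_add_const (Real.sqrt t • x))
    rw [map_shift_eq] at h1
    rw [lintegral_withDensity_eq_lintegral_mul _ (by unfold shiftW; fun_prop) hFs] at h1
    simp only [smul_shift ht.le, Pi.mul_apply, wgt_eq ht.le] at h1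
    exact h1.symm
  simp only [e1]
  rw [lintegral_lintegral_swap
    ((measurable_wgt t).ennreal_ofReal.mul (hFs.comp measurable_snd)).aemeasurable]
  refine lintegral_congr fun z => ?_
  have hi := integrable_num hb (Good.const (μ := μ) 1) t (Real.sqrt t • z)
  simp only [one_mul] at hi
  rw [lintegral_mul_const _ (show Measurable fun x => ENNReal.ofReal (wgt t x z) from
    ((measurable_wgt t).comp (measurable_id.prodMk measurable_const)).ennreal_ofReal), mul_comm]
  congr 1
  simp only [zt, num, one_mul, wgt]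
  exact (ofReal_integral_eq_lintegral_ofReal hi (ae_of_all _ fun x => (Real.exp_pos _).le)).symm

/-- Gaussian integration by parts in the direction `e`. -/
lemma stein {G : Rn n → ℝ} (hG : ContDiff ℝ 1 G) {B M : ℝ} (hB : ∀ z, |G z| ≤ B) (e : Rn n)
    (hM : ∀ z, |fderiv ℝ G z e| ≤ M) :
    ∫ z, ⟪e, z⟫ * G z ∂gam n = ∫ z, fderiv ℝ G z e ∂gam n := by
  have hGc := hG.continuous
  have hD := hG.continuous_fderiv one_ne_zero
  have hGi : ∀ w, Integrable (fun z => G (z + w)) (gam n) := fun w =>
    Integrable.of_bound (by fun_prop : Continuous _).aestronglyMeasurable B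
      (ae_of_all _ fun z => by simpa using hB _)
  have hl : HasDerivAt (fun s : ℝ => ∫ z, G (z + s • e) ∂gam n) (∫ z, fderiv ℝ G z e ∂gam n) 0 := by
    have := hasDerivAt_integral_of_dominated_loc_of_deriv_le (x₀ := (0 : ℝ)) (μ := gam n)
      (F := fun s z => G (z + s • e)) (F' := fun s z => fderiv ℝ G (z + s • e) e)
      (bound := fun _ => M) Filter.univ_mem
      (Eventually.of_forall fun s => (hGi _).aestronglyMeasurable) (hGi _)
      (by fun_prop : Continuous _).aestronglyMeasurable
      (ae_of_all _ fun z s _ => hM _) (integrable_const _) (ae_of_all _ fun z s _ => ?_)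
    · simpa using this.2
    · exact ((hG.differentiable one_ne_zero _).hasFDerivAt).comp_hasDerivAt s
        (show HasDerivAt (fun r : ℝ => z + r • e) e s by
          simpa using ((hasDerivAt_id' s).smul_const e).const_add z)
  have hr : HasDerivAt (fun s : ℝ => ∫ z, shiftW (s • e) z * G z ∂gam n)
      (∫ z, ⟪e, z⟫ * G z ∂gam n) 0 := by
    have hws : ∀ s : ℝ, Integrable (fun z => shiftW (s • e) z * G z) (gam n) := fun s =>
      (integrable_shiftW _).mul_bdd hGc.aestronglyMeasurable (c := B)
        (ae_of_all _ fun z => by simpa using hB z)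
    have hd : ∀ (z : Rn n) (s : ℝ), HasDerivAt (fun s : ℝ => shiftW (s • e) z * G z)
        ((⟪e, z⟫ - s * ‖e‖ ^ 2) * shiftW (s • e) z * G z) s := by
      intro z s
      have e0 : (fun s : ℝ => shiftW (s • e) z)
          = fun s => Real.exp (s * ⟪e, z⟫ - s ^ 2 * ‖e‖ ^ 2 / 2) := by
        funext s
        unfold shiftW
        rw [inner_smul_left, norm_smul, mul_pow, Real.norm_eq_abs, sq_abs]
        simp
      have h1 : HasDerivAt (fun s : ℝ => Real.exp (s * ⟪e, z⟫ - s ^ 2 * ‖e‖ ^ 2 / 2))
          (Real.exp (s * ⟪e, z⟫ - s ^ 2 * ‖e‖ ^ 2 / 2) * (⟪e, z⟫ - s * ‖e‖ ^ 2)) s := by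
        refine HasDerivAt.exp ?_
        refine ((((hasDerivAt_id' s).mul_const _).sub
          (((hasDerivAt_pow 2 s).mul_const _).div_const 2))).congr_deriv ?_
        simp
        ring
      rw [← e0] at h1
      refine (h1.mul_const (G z)).congr_deriv ?_
      have : Real.exp (s * ⟪e, z⟫ - s ^ 2 * ‖e‖ ^ 2 / 2) = shiftW (s • e) z :=
        (congrFun e0 s).symm
      rw [this]
      ring
    have hbi : Integrable (fun z => (1 + ‖e‖ ^ 2) * B *
        (Real.exp ⟪(2 : ℝ) • e, z⟫ + Real.exp ⟪(-2 : ℝ) • e, z⟫)) (gam n) :=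
      ((mgf_inner_gam _).1.add (mgf_inner_gam _).1).const_mul _
    have := hasDerivAt_integral_of_dominated_loc_of_deriv_le (x₀ := (0 : ℝ)) (μ := gam n)
      (F := fun s z => shiftW (s • e) z * G z)
      (F' := fun s z => (⟪e, z⟫ - s * ‖e‖ ^ 2) * shiftW (s • e) z * G z)
      (bound := fun z => (1 + ‖e‖ ^ 2) * B *
        (Real.exp ⟪(2 : ℝ) • e, z⟫ + Real.exp ⟪(-2 : ℝ) • e, z⟫))
      (Metric.ball_mem_nhds (0 : ℝ) one_pos)
      (Eventually.of_forall fun s => (hws s).aestronglyMeasurable) (hws 0)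
      (by unfold shiftW; fun_prop : Continuous _).aestronglyMeasurable
      (ae_of_all _ fun z s hs => ?_) hbi (ae_of_all _ fun z s _ => hd z s)
    · simpa [shiftW] using this.2
    · rw [Metric.mem_ball, dist_zero_right, Real.norm_eq_abs] at hs
      have hB0 : 0 ≤ B := (abs_nonneg _).trans (hB z)
      rw [Real.norm_eq_abs, abs_mul, abs_mul]
      have h1 : |⟪e, z⟫ - s * ‖e‖ ^ 2| ≤ (1 + ‖e‖ ^ 2) * Real.exp |⟪e, z⟫| := by
        have h0 : |s * ‖e‖ ^ 2| ≤ ‖e‖ ^ 2 := by
          rw [abs_mul, abs_of_nonneg (sq_nonneg ‖e‖)]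
          exact mul_le_of_le_one_left (sq_nonneg _) hs.le
        have := Real.add_one_le_exp |⟪e, z⟫|
        have := abs_sub ⟪e, z⟫ (s * ‖e‖ ^ 2)
        nlinarith [abs_nonneg ⟪e, z⟫, sq_nonneg ‖e‖]
      have h2 : |shiftW (s • e) z| ≤ Real.exp |⟪e, z⟫| := by
        unfold shiftW
        rw [Real.abs_exp]
        refine Real.exp_le_exp.2 ?_
        have : ⟪s • e, z⟫ ≤ |⟪e, z⟫| := by
          rw [inner_smul_left]
          simp only [conj_trivial]
          exact (le_abs_self _).trans (by rw [abs_mul]; exact mul_le_of_le_one_left (abs_nonneg _) hs.le)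
        have : 0 ≤ ‖s • e‖ ^ 2 := sq_nonneg _
        linarith
      refine (mul_le_mul (mul_le_mul h1 h2 (abs_nonneg _) (by positivity)) (hB z) (abs_nonneg _)
        (by positivity)).trans ?_
      rw [mul_assoc _ (Real.exp _) (Real.exp _), ← Real.exp_add]
      rw [mul_right_comm]
      refine mul_le_mul_of_nonneg_left ?_ (by positivity)
      rw [inner_smul_left, inner_smul_left]
      simp only [conj_trivial]
      rcases abs_cases ⟪e, z⟫ with h | h <;> rw [h.1]
      · rw [← two_mul]; linarith [Real.exp_pos (-2 * ⟪e, z⟫)]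
      · rw [show -⟪e, z⟫ + -⟪e, z⟫ = -2 * ⟪e, z⟫ by ring]
        linarith [Real.exp_pos (2 * ⟪e, z⟫)]
  have heq : (fun s : ℝ => ∫ z, G (z + s • e) ∂gam n)
      = fun s => ∫ z, shiftW (s • e) z * G z ∂gam n := funext fun s => integral_shift G _
  rw [heq] at hl
  exact hr.unique hl

end Vale.Agent.P245.M2
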